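import Vale.Agent.P281.H511.TS.Form

/-!
# P281, project T-S (helper511), block G2: the norm of the form
-/

open Set Filter Metric MeasureTheory Vale.Agent.P281 Vale.Agent.P281.H713 Vale.Agent.P272.K
open scoped Topology ContDiff Manifold ComplexConjugate ENNReal

set_option linter.unusedSectionVars false

noncomputable section

namespace Vale.Agent.P281.H511.TS

open Vale.Agent.P281.H64.TK Vale.Agent.P281.H64.TK.TS Vale.Agent.P281.H603.K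
open Vale.Agent.P281.H864.K
open Vale.Agent.P281.H603.TE (sub fsub fW idx rep exists_rep ccs sub_sigma fsub_sigma' lift_polyM
  polyIn_sub)

attribute [local instance] ccs

/-- the integral of a continuous nonnegative density -/
theorem lint_int {d : ℕ} {E Γ : Type} [TopologicalSpace E] [Group Γ] [MulAction Γ E]
    [ContinuousConstSMul Γ E] (S : Sheets d E Γ) {D : Fin S.N → Cm d → ℝ}
    (hc : ∀ i, ContinuousOn (D i) (ball 0 3)) (h0 : ∀ i z, 0 ≤ D i z) :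
    ∑ i, ∫⁻ z in S.P i, ENNReal.ofReal (D i z) =
      ENNReal.ofReal (S.int fun i z => ((D i z : ℝ) : ℂ)).re := by
  have h1 : (S.int fun i z => ((D i z : ℝ) : ℂ)) = ((∑ i, ∫ z in S.P i, D i z : ℝ) : ℂ) := by
    rw [Sheets.int, Complex.ofReal_sum]
    exact Finset.sum_congr rfl fun i _ => integral_ofReal
  rw [h1, Complex.ofReal_re, ENNReal.ofReal_sum_of_nonneg (fun i _ =>
    setIntegral_nonneg (meas_P S i) fun z _ => h0 i z)]
  refine Finset.sum_congr rfl fun i _ => ?_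
  rw [ofReal_integral_eq_lintegral_ofReal (integrableOn_P S i (hc i))]
  exact Eventually.of_forall fun z => h0 i z

variable {p : ℕ} {Z Y : Type} [TopologicalSpace Z] [T2Space Z] [ChartedSpace (Cm (p + 2)) Z]
  [IsManifold 𝓘(ℂ, Cm (p + 2)) ω Z] [TopologicalSpace Y] [T2Space Y] [ChartedSpace (Cm p) Y]
  [IsManifold 𝓘(ℂ, Cm p) ω Y] {f : Z → Y}
  {w : Chart (p + 2) Z → Cm (p + 2) → Matrix (Fin (p + 2)) (Fin (p + 2)) ℂ} {N n : ℕ}
  {B : Matrix (Fin n) (Fin n) ℝ} {v : Fin n → ℝ} {L : LocK (p := p) f w N B v}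

theorem enorm_pow_rpow {N : ℕ} (hN : 0 < N) (a : ℂ) :
    ‖a ^ N‖ₑ ^ (2 / (N : ℝ)) = ENNReal.ofReal (‖a‖ ^ 2) := by
  have hN' : (N : ℝ) ≠ 0 := by exact_mod_cast hN.ne'
  rw [enorm_pow, ← ENNReal.rpow_natCast, ← ENNReal.rpow_mul]
  have h1 : (N : ℝ) * (2 / N) = ((2 : ℕ) : ℝ) := by
    field_simp
    norm_num
  rw [h1, ENNReal.rpow_natCast, ENNReal.ofReal_pow (norm_nonneg _), ofReal_norm]

/-- the pull-back of the form by a polydisc -/
theorem pull_eta (hf : ContMDiff 𝓘(ℂ, Cm (p + 2)) 𝓘(ℂ, Cm p) ω f) {q : Cm 2 → Z} {v₀ : Cm 2}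
    {r : ℝ} (hq : IsPolydisc (Cm (p + 2)) f q v₀ r) (hy : f (q v₀) ∈ U L) {q' : Cm 2 → L.E}
    (hqq : ∀ u ∈ ball v₀ r, L.q (L.χ (f (q v₀))) (q' u) = q u) {u : Cm 2} (hu : u ∈ ball v₀ r)
    {i : IX L} {z : Cm 2} (hz : z ∈ ball (0 : Cm 2) 3) {γ : L.Γ} {θ : Cm 2 → Cm 2}
    (hθ : AnalyticAt ℂ θ u) (hθz : θ u = z)
    (hev : ∀ᶠ u' in 𝓝 u, q' u' = γ • sg L i (L.χ (f (q v₀))) (θ u')) :
    pull (Cm (p + 2)) (eta L) q u =
      (L.s i (L.χ (f (q v₀)), z) * (H64.TK.jac θ u).det) ^ N := by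
  have hfq : ∀ u' ∈ ball v₀ r, f (q u') = f (q v₀) := hq.2.2
  have hfu := hfq u hu
  have hx : f (q u) ∈ U L := by rw [hfu]; exact hy
  have h1 : L.q (L.χ (f (q u))) (sg L i (L.χ (f (q u))) z) = q u := by
    rw [← q_smul L hx γ, hfu, ← hqq u hu, hev.self_of_nhds, hθz]
  obtain ⟨ζ, hco, hζz⟩ := exists_co hf hx hz h1
  have hqc : ContinuousAt q u := (hq.1 u hu).continuousAt
  have h2 : (fun u' => ζ (q u')) =ᶠ[𝓝 u] θ := by
    have e1 : ∀ᶠ u' in 𝓝 u, θ u' ∈ ball (0 : Cm 2) 3 := hθ.continuousAt.eventually (by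
      rw [hθz]
      exact isOpen_ball.mem_nhds hz)
    have e2 : ∀ᶠ u' in 𝓝 u, ζ (q u') ∈ ball (0 : Cm 2) 3 :=
      hqc.eventually (hco.1.continuousAt.eventually (isOpen_ball.mem_nhds hco.2.1))
    filter_upwards [e1, e2, hev, hqc.eventually hco.2.2, isOpen_ball.mem_nhds hu]
      with u' a1 a2 a3 a4 a5
    rw [hfq u' a5] at a4
    refine eq_of_q (j := i) (L.hT' hy.2) a2 a1 ?_
    rw [a4, ← q_smul L hy γ, ← a3, hqq u' a5]
  have hqm : MDifferentiableAt 𝓘(ℂ, Cm 2) 𝓘(ℂ, Cm (p + 2)) q u :=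
    (hq.1 u hu).mdifferentiableAt (by simp)
  -- vertical vectors
  have hvert : ∀ l : Fin 2, mfderiv 𝓘(ℂ, Cm (p + 2)) 𝓘(ℂ, Cm p) f (q u)
      (mfderiv 𝓘(ℂ, Cm 2) 𝓘(ℂ, Cm (p + 2)) q u (Pi.single l 1)) = 0 := by
    intro l
    have h3 := mfderiv_comp_apply u (g := f) (f := q) ((hf (q u)).mdifferentiableAt (by simp))
      hqm (Pi.single l 1)
    have h4 : (f ∘ q) =ᶠ[𝓝 u] fun _ => f (q v₀) := by
      filter_upwards [isOpen_ball.mem_nhds hu] with u' hu'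
      exact hfq u' hu'
    rw [h4.mfderiv_eq, mfderiv_const] at h3
    exact h3.symm
  have h7 : Dt ζ (q u) (fun l => (mfderiv 𝓘(ℂ, Cm 2) 𝓘(ℂ, Cm (p + 2)) q u
      (Pi.single l 1 : Cm 2) : Cm (p + 2))) = (H64.TK.jac θ u).det := by
    refine (Dt_eq (hco.1.mdifferentiableAt (by simp)) _).trans ?_
    congr 1
    ext k l
    have h5 := mfderiv_comp_apply u (g := ζ) (f := q) (hco.1.mdifferentiableAt (by simp))
      hqm (Pi.single l 1 : Cm 2)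
    have h6 : (ζ ∘ q) =ᶠ[𝓝 u] θ := h2
    rw [h6.mfderiv_eq, mfderiv_eq_fderiv] at h5
    exact (congrFun h5 k).symm
  have h8 := eta_eq hf hx hco (ξ := fun l => (mfderiv 𝓘(ℂ, Cm 2) 𝓘(ℂ, Cm (p + 2)) q u
      (Pi.single l 1 : Cm 2) : Cm (p + 2))) hvert
  refine Eq.trans (show pull (Cm (p + 2)) (eta L) q u = _ from h8) ?_
  rw [h7, hζz, hfu]

/-- **the norm** -/
theorem lint_eta (hf : ContMDiff 𝓘(ℂ, Cm (p + 2)) 𝓘(ℂ, Cm p) ω f) (hN : 0 < N) {q : Cm 2 → Z}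
    {v₀ : Cm 2} {r : ℝ} (hq : IsPolydisc (Cm (p + 2)) f q v₀ r) (hy : f (q v₀) ∈ U L) :
    ∫⁻ u in ball v₀ r, ‖pull (Cm (p + 2)) (eta L) q u‖ₑ ^ (2 / (N : ℝ)) ≤
      ENNReal.ofReal ((SK L hy).int fun i z =>
        ((‖L.s i (L.χ (f (q v₀)), z)‖ ^ 2 : ℝ) : ℂ)).re := by
  rcases le_or_gt r 0 with hr | hr
  · rw [ball_eq_empty.2 hr, Measure.restrict_empty, lintegral_zero_measure]
    exact bot_le
  obtain ⟨q', hqq, hpoly⟩ := lift_polyM L.model hy.1 (L.hT' hy.2) hq rfl hr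
  have hS := L.holS.form _ (L.hT' hy.2) hy.2
  rw [← lint_int (SK L hy) (D := fun i z => ‖L.s i (L.χ (f (q v₀)), z)‖ ^ 2)
    (fun i => ((hS.hol i).continuousOn.norm).pow 2) (fun i z => by positivity)]
  refine lint_poly (polyIn_sub ⊥ hpoly) _ _ ?_
  intro i u hu z hz γ θ hθ hθz hev
  rw [pull_eta hf hq hy hqq hu hz (γ := (γ : L.Γ)) hθ hθz hev, enorm_pow_rpow hN, norm_mul,
    mul_pow, mul_comm, ENNReal.ofReal_mul (by positivity)]

end Vale.Agent.P281.H511.TS
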