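import Vale.Agent.P281.H511.TS.Change
import Vale.Agent.P281.H511.TS.Norm

/-!
# P281, project T-S (helper511), block G2: the periods and the forms
-/

open Set Filter Metric MeasureTheory Vale.Agent.P281 Vale.Agent.P281.H713 Vale.Agent.P272.K
open scoped Topology ContDiff Manifold ComplexConjugate ENNReal

set_option linter.unusedSectionVars false

noncomputable section

namespace Vale.Agent.P281.H511.TS

open Vale.Agent.P281.H64.TK Vale.Agent.P281.H64.TK.TS Vale.Agent.P281.H603.K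
open Vale.Agent.P281.H603.TE (sub fsub fW idx rep exists_rep ccs sub_sigma fsub_sigma')

attribute [local instance] ccs

section
variable {p : ℕ} {Z Y : Type} [TopologicalSpace Z] [T2Space Z] [ChartedSpace (Cm (p + 2)) Z]
  [IsManifold 𝓘(ℂ, Cm (p + 2)) ω Z] [TopologicalSpace Y] [T2Space Y] [ChartedSpace (Cm p) Y]
  [IsManifold 𝓘(ℂ, Cm p) ω Y] {f : Z → Y}
  {w : Chart (p + 2) Z → Cm (p + 2) → Matrix (Fin (p + 2)) (Fin (p + 2)) ℂ} {N n : ℕ}
  {B : Matrix (Fin n) (Fin n) ℝ} {v : Fin n → ℝ} {L : LocK (p := p) f w N B v}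

theorem holAt_co {x : Z} {ζ : Z → Cm 2}
    (h : ContMDiffAt 𝓘(ℂ, Cm (p + 2)) 𝓘(ℂ, Cm 2) ω ζ x) (k : Fin 2) :
    J.HolAt (Cm (p + 2)) (fun z => ζ z k) x := by
  have h1 : ContMDiffAt 𝓘(ℂ, Cm 2) 𝓘(ℂ, ℂ) ω
      (ContinuousLinearMap.proj (R := ℂ) (φ := fun _ : Fin 2 => ℂ) k) (ζ x) :=
    ((ContinuousLinearMap.proj (R := ℂ) (φ := fun _ : Fin 2 => ℂ) k).contDiff).contMDiff _
  exact ContMDiffAt.comp x (g := ContinuousLinearMap.proj (R := ℂ) (φ := fun _ : Fin 2 => ℂ) k)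
    (f := ζ) h1 h

theorem fibreChart {x : Z} (hf : ContMDiff 𝓘(ℂ, Cm (p + 2)) 𝓘(ℂ, Cm p) ω f) (hx : f x ∈ U L)
    {i : IX L} {ζ : Z → Cm 2} (h : IsCo L x i ζ) :
    IsFibreChart (Cm (p + 2)) (Cm p) f (fun k z => ζ z k) x := by
  refine ⟨holAt_co h.1, fun ξ hξ h0 => co_inj hf hx h hξ ?_⟩
  funext k
  rw [← dif_coord (h.1.mdifferentiableAt (by simp)) k ξ]
  exact h0 k

theorem holAt_s {x : Z} (hf : ContMDiff 𝓘(ℂ, Cm (p + 2)) 𝓘(ℂ, Cm p) ω f) (hx : f x ∈ U L)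
    {i : IX L} {ζ : Z → Cm 2} (h : IsCo L x i ζ) :
    J.HolAt (Cm (p + 2)) (fun z => L.s i (L.χ (f z), ζ z) ^ N) x := by
  have h1 : ContDiffAt ℂ ω (fun r : Cm p × Cm 2 => L.s i r ^ N) (L.χ (f x), ζ x) :=
    ((L.holS.hol i _ hx.2 _ h.2.1).pow N).contDiffAt
  have h7 : ContMDiffAt 𝓘(ℂ, Cm (p + 2)) 𝓘(ℂ, Cm p) ω (fun x' => L.χ (f x')) x :=
    ContMDiffAt.comp x (g := L.χ) (f := f) (contMDiffAt_χ L hx) (hf x)
  have h8 : ContMDiffAt 𝓘(ℂ, Cm (p + 2)) 𝓘(ℂ, Cm p × Cm 2) ω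
      (fun x' => (L.χ (f x'), ζ x')) x := by
    rw [modelWithCornersSelf_prod, ← chartedSpaceSelf_prod]
    exact h7.prodMk h.1
  exact ContMDiffAt.comp x (g := fun r : Cm p × Cm 2 => L.s i r ^ N)
    (f := fun x' => (L.χ (f x'), ζ x')) h1.contMDiffAt h8

theorem forms {x : Z} (hf : ContMDiff 𝓘(ℂ, Cm (p + 2)) 𝓘(ℂ, Cm p) ω f) (hx : f x ∈ U L) :
    IsFibreForms (t := 1) (Cm (p + 2)) (Cm p) f N (fun _ => 0) (fun _ => eta L) x := by
  intro T e hT he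
  obtain ⟨i, ζ, h⟩ := chart hf hx
  refine ⟨fun k z => ζ z k, fun _ z => L.s i (L.χ (f z), ζ z) ^ N, fibreChart hf hx h,
    fun _ => holAt_s hf hx h, ?_⟩
  filter_upwards [h.near, eventually_mem L hf hx] with z hz hU _ _ ξ hξ
  simp only [pow_zero, Finset.prod_const_one, mul_one]
  rw [eta_eq hf hU hz hξ, mul_pow]
  rfl

theorem rank (hf : ContMDiff 𝓘(ℂ, Cm (p + 2)) 𝓘(ℂ, Cm p) ω f) {y : Y} (hy : y ∈ U L) :
    IsOfRank (t := 1) (Cm (p + 2)) (Cm p) f (fun _ => 0) 0 (fun _ => eta L) y := by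
  obtain ⟨i, z, hz, h0⟩ := L.holS.ne _ hy.2
  have hfx := f_par hy i z
  have hx : f (par L y i z) ∈ U L := by rw [hfx]; exact hy
  obtain ⟨ζ, h, hζ⟩ := exists_co (x := par L y i z) hf hx hz (by rw [hfx])
  refine ⟨par L y i z, hfx, fun D hD => absurd rfl hD, 0, Fin.elim0, Fin.elim0,
    ⟨fun l => tg (L := L) (f (par L y i z)) i (ζ (par L y i z)) (Pi.single l 1),
      fun l => vert_tg hf hx h _, ?_⟩, fun s => s.elim0,
    Eventually.of_forall fun _ s => s.elim0, fun c _ => Subsingleton.elim _ _⟩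
  show eta L (par L y i z) (fun l => tg (L := L) (f (par L y i z)) i (ζ (par L y i z))
    (Pi.single l 1)) ≠ 0
  rw [eta_eq hf hx h (fun l => vert_tg hf hx h _), Dt_tg hx h, mul_one, hζ, hfx]
  exact pow_ne_zero _ h0

/-- the period and the norm of the form -/
theorem period (hPer : PerStmt) {y : Y} (hy : y ∈ U L) :
    IsK3Period B v (L.P (L.χ y)) ∧ (bil B (L.P (L.χ y)) (star (L.P (L.χ y)))).re =
      4 * ((SK L hy).int fun i z => ((‖L.s i (L.χ y, z)‖ ^ 2 : ℝ) : ℂ)).re := by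
  have hS := L.holS.form _ (L.hT' hy.2) hy.2
  have h1 := hPer L.E (⊥ : Subgroup L.Γ) (SK L hy) (fW ⊥ L.W (L.χ y))
    (fun i z => L.s i (L.χ y, z)) n (L.M _ hy.2) (H603.TE.kah_fW ⊥ L.kfam (L.hT' hy.2)) hS
    (L.holS.ne _ hy.2) (fun s' hs' => hone_of (L.one _ hy.2) hS (L.holS.ne _ hy.2) hs')
  rw [L.form _ hy.2, L.kah _ hy.2, ← L.per _ hy.2] at h1
  exact h1

end

/-- the trivial lattice -/
def triv : (Fin 0 → ℝ) ≃L[ℝ] EuclideanSpace ℂ (Fin 0) :=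
  (LinearEquiv.ofSubsingleton (Fin 0 → ℝ) (EuclideanSpace ℂ (Fin 0)) :
    (Fin 0 → ℝ) ≃ₗ[ℝ] EuclideanSpace ℂ (Fin 0)).toContinuousLinearEquiv

/-- **G2** -/
theorem formK (hK : KStmt) (hPer : PerStmt) (hPM : PullMarkStmt) (hTM : TwoMarkStmt) :
    FormKStmt := by
  classical
  intro p N Z Y _ _ _ _ _ _ _ _ f S w n B v hN hf hP hw hL
  choose L hL1 hL2 hL3 using hL
  have hU : ∀ a : {y // y ∉ S}, a.1 ∈ U (L a.1 a.2) := fun a => ⟨hL1 a.1 a.2, hL2 a.1 a.2⟩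
  have hUS : ∀ (a : {y // y ∉ S}) (y : Y), y ∈ U (L a.1 a.2) → y ∉ S := by
    intro a y hy
    have h1 := hL3 a.1 a.2 _ hy.2
    rwa [(L a.1 a.2).χ.left_inv hy.1] at h1
  refine ⟨{y // y ∉ S}, fun a => U (L a.1 a.2), fun _ _ => triv,
    fun a y _ => (L a.1 a.2).P ((L a.1 a.2).χ y), fun a _ => eta (L a.1 a.2), ?_⟩
  exact {
    cover := fun y => ⟨fun hy => ⟨⟨y, hy⟩, hU ⟨y, hy⟩⟩, fun ⟨a, ha⟩ => hUS a y ha⟩
    isOpen := fun a => isOpen_U _
    hol := fun a x y _ => contMDiffAt_const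
    polarized := fun a y _ => ⟨ContinuousLinearEquiv.refl ℂ _, fun x x' => by
      rw [Subsingleton.elim (ContinuousLinearEquiv.refl ℂ (EuclideanSpace ℂ (Fin 0)) (triv x)) 0,
        inner_zero_left]
      rfl⟩
    period := fun a y hy j => ⟨(period hPer hy).1, fun i => by
      have h1 : ContDiffAt ℂ ω (fun t => (L a.1 a.2).P t i) ((L a.1 a.2).χ y) :=
        ((L a.1 a.2).holP i _ hy.2).contDiffAt
      exact ContMDiffAt.comp y (g := fun t => (L a.1 a.2).P t i) (f := (L a.1 a.2).χ)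
        h1.contMDiffAt (contMDiffAt_χ (L a.1 a.2) hy)⟩
    chart := fun x hx => by
      obtain ⟨i, ζ, h⟩ := chart (L := L (f x) hx) hf (hU ⟨f x, hx⟩)
      exact ⟨fun k z => ζ z k, fibreChart hf (hU ⟨f x, hx⟩) h⟩
    forms := fun a x hx => forms hf hx
    rank := fun a y hy => rank hf hy
    change := fun a b y hy => by
      obtain ⟨c, h1, h2⟩ := change hK hPM hTM hf hw (L a.1 a.2) (L b.1 b.2) hy.1 hy.2
      refine ⟨ContinuousLinearEquiv.refl ℂ _, Equiv.refl _, fun _ => c, Equiv.refl _,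
        ⟨fun m => ⟨m, Subsingleton.elim _ _⟩, fun m => ⟨m, Subsingleton.elim _ _⟩,
          fun _ _ => rfl⟩, fun j => ⟨rfl, rfl, rfl, h1⟩, fun x hx _ i ξ hξ => ?_⟩
      rw [pow_zero, one_mul, Fin.prod_univ_one]
      exact h2 x hx ξ hξ
    norm := by
      refine ⟨(1 / 4) ^ N, fun a i q v₀ r hq hy _ G _ => ?_⟩
      obtain ⟨h1, h2⟩ := period (L := L a.1 a.2) hPer hy
      have h3 := lint_eta (L := L a.1 a.2) hf hN hq hy
      have h4 : periodNorm (fun _ : Fin 1 => B) (fun _ => N)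
          (fun _ => (L a.1 a.2).P ((L a.1 a.2).χ (f (q v₀)))) =
          (bil B ((L a.1 a.2).P ((L a.1 a.2).χ (f (q v₀))))
            (star ((L a.1 a.2).P ((L a.1 a.2).χ (f (q v₀)))))).re ^ N := by
        unfold periodNorm
        rw [Fin.prod_univ_one]
      have h5 : 0 ≤ ((SK (L a.1 a.2) hy).int fun i z =>
          ((‖(L a.1 a.2).s i ((L a.1 a.2).χ (f (q v₀)), z)‖ ^ 2 : ℝ) : ℂ)).re := by
        have := h1.pos
        rw [h2] at this
        linarith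
      rw [mul_zero, pow_zero, mul_one]
      refine le_trans (pow_le_pow_left₀ bot_le h3 N) (le_of_eq ?_)
      rw [← ENNReal.ofReal_pow h5, h4, h2, ← mul_pow]
      congr 2
      ring }

end Vale.Agent.P281.H511.TS
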