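import Vale.Agent.P281.H624.TS.Cls
import Vale.Agent.P281.H864.TS.Pull
import Vale.Agent.P281.H740.TS.Lin
import Vale.Agent.P281.H64.TS.Spec2

/-!
# P281, project T-S (helper511), block G2: classes of forms, pull-back of holomorphic forms
-/

open Set Filter Metric MeasureTheory Vale.Agent.P272.K
open scoped Topology ContDiff ComplexConjugate ComplexOrder

set_option linter.unusedSectionVars false

noncomputable section

namespace Vale.Agent.P281.H511.TS

open Vale.Agent.P281.H64.TK Vale.Agent.P281.H64.TK.TS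

section exact
variable {d : ℕ} {E Γ : Type} [TopologicalSpace E] [Group Γ] [MulAction Γ E] {S : Sheets d E Γ}

theorem f1_diff {β : Fin S.N → Cm d → L1 d} (h : F1On S univ β) {i : Fin S.N} {z : Cm d}
    (hz : z ∈ ball (0 : Cm d) 3) : DifferentiableAt ℝ (β i) z :=
  (h.smooth i z hz (mem_univ _)).differentiableAt (by simp)

theorem exact_sub {α α' : Fin S.N → Cm d → L2 d} (h : Exact S α) (h' : Exact S α') :
    Exact S (fun i z => α i z - α' i z) := by
  obtain ⟨β, h1, h2⟩ := h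
  obtain ⟨β', h1', h2'⟩ := h'
  refine ⟨fun i z => β i z - β' i z, ⟨fun i z hz hm => (h1.smooth i z hz hm).sub
    (h1'.smooth i z hz hm), fun i j z hz z' hz' hm ψ hψ v => ?_⟩, fun i z hz hm u v => ?_⟩
  · have e1 := h1.change i j z hz z' hz' hm ψ hψ v
    have e2 := h1'.change i j z hz z' hz' hm ψ hψ v
    show β i z v - β' i z v = β j z' (fderiv ℝ ψ z v) - β' j z' (fderiv ℝ ψ z v)
    rw [e1, e2]
  · have e1 := h2 i z hz hm u v
    have e2 := h2' i z hz hm u v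
    have e3 : fderiv ℝ (fun z => β i z - β' i z) z = fderiv ℝ (β i) z - fderiv ℝ (β' i) z :=
      ((f1_diff h1 hz).hasFDerivAt.sub (f1_diff h1' hz).hasFDerivAt).fderiv
    rw [e3]
    show (fderiv ℝ (β i) z u v - fderiv ℝ (β' i) z u v) -
      (fderiv ℝ (β i) z v u - fderiv ℝ (β' i) z v u) = α i z u v - α' i z u v
    rw [← e1, ← e2]
    ring

theorem exact_smul {α : Fin S.N → Cm d → L2 d} (x : ℂ) (h : Exact S α) :
    Exact S (fun i z => x • α i z) := by
  obtain ⟨β, h1, h2⟩ := h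
  refine ⟨fun i z => x • β i z, ⟨fun i z hz hm => (h1.smooth i z hz hm).const_smul x,
    fun i j z hz z' hz' hm ψ hψ v => ?_⟩, fun i z hz hm u v => ?_⟩
  · have e1 := h1.change i j z hz z' hz' hm ψ hψ v
    show x * β i z v = x * β j z' (fderiv ℝ ψ z v)
    rw [e1]
  · have e1 := h2 i z hz hm u v
    have e3 : fderiv ℝ (fun z => x • β i z) z = x • fderiv ℝ (β i) z :=
      Vale.Agent.P281.H740.TS.fd_smul (F := L1 d) (f1_diff h1 hz) x
    rw [e3]
    show x * fderiv ℝ (β i) z u v - x * fderiv ℝ (β i) z v u = x * α i z u v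
    rw [← e1]
    ring

theorem cl_smul {n : ℕ} (M : Mark2 S n) {α : Fin S.N → Cm d → L2 d} (hα : Cl2 S α) (x : ℂ) :
    M.cl (fun i z => x • α i z) = x • M.cl α := by
  have h1 := M.ex _ (Vale.Agent.P281.H740.TS.cl2_smul x hα)
  have h2 := exact_smul x (M.ex _ hα)
  have h3 := exact_sub h2 h1
  have h4 : (fun (i : Fin S.N) (z : Cm d) => x • (α i z - ∑ k, M.cl α k • M.b k i z) -
      (x • α i z - ∑ k, M.cl (fun i z => x • α i z) k • M.b k i z)) =
      fun i z => ∑ k, (M.cl (fun i z => x • α i z) - x • M.cl α) k • M.b k i z := by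
    funext i z
    refine ContinuousLinearMap.ext fun u => ContinuousLinearMap.ext fun v => ?_
    simp only [sub_apply, smul_apply, sum_apply, Pi.sub_apply, Pi.smul_apply, smul_eq_mul,
      sub_mul, Finset.sum_sub_distrib, Finset.mul_sum, mul_sub, mul_assoc]
    ring
  rw [h4] at h3
  exact sub_eq_zero.1 (M.indep _ h3)

end exact

/-! ### Pull-back of holomorphic forms of top degree -/

theorem analyticAt_det {d : ℕ} {θ : Cm d → Cm d} {z : Cm d} (h : AnalyticAt ℂ θ z) :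
    AnalyticAt ℂ (fun u => (H64.TK.jac θ u).det) z := by
  have h1 : AnalyticAt ℂ (fderiv ℂ θ) z := h.fderiv
  have h2 : ∀ k l : Fin d, AnalyticAt ℂ (fun u => H64.TK.jac θ u l k) z := by
    intro k l
    have h3 : AnalyticAt ℂ (fun u => fderiv ℂ θ u (Pi.single k 1)) z :=
      ((ContinuousLinearMap.apply ℂ (Cm d) (Pi.single k (1 : ℂ) : Cm d)).analyticAt _).comp h1
    exact ((ContinuousLinearMap.proj (R := ℂ) (φ := fun _ : Fin d => ℂ) l).analyticAt _).comp h3
  simp only [Matrix.det_apply']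
  refine Finset.analyticAt_fun_sum _ fun σ _ => ?_
  exact analyticAt_const.mul (Finset.analyticAt_fun_prod _ fun i _ => h2 _ _)

section pb
variable {d : ℕ} {E Γ : Type} [TopologicalSpace E] [Group Γ] [MulAction Γ E] [Subsingleton Γ]
  {E' Γ' : Type} [TopologicalSpace E'] [Group Γ'] [MulAction Γ' E'] [Subsingleton Γ']

/-- `θ` is the transition map along `τ` -/
def HTr (S : Sheets d E Γ) (S' : Sheets d E' Γ') (τ : E → E') (i : Fin S.N) (j : Fin S'.N)
    (z z' : Cm d) (θ : Cm d → Cm d) : Prop :=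
  AnalyticAt ℂ θ z ∧ θ z = z' ∧ ∀ᶠ u in 𝓝 z, τ (S.σ i u) = S'.σ j (θ u)

/-- `τ` is biholomorphic -/
def Hol (S : Sheets d E Γ) (S' : Sheets d E' Γ') (τ : E → E') : Prop :=
  ∀ i j, ∀ z ∈ ball (0 : Cm d) 3, ∀ z' ∈ ball (0 : Cm d) 3, τ (S.σ i z) = S'.σ j z' →
    ∃ θ : Cm d → Cm d, HTr S S' τ i j z z' θ ∧ (H64.TK.jac θ z).det ≠ 0

variable {S : Sheets d E Γ} {S' : Sheets d E' Γ'} {τ : E → E'}

theorem HTr.tr {i : Fin S.N} {j : Fin S'.N} {z z' : Cm d} {θ : Cm d → Cm d}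
    (h : HTr S S' τ i j z z' θ) : Tr S S' τ i j z z' θ :=
  ⟨(h.1.contDiffAt (n := ∞)).restrict_scalars ℝ, h.2.1, h.2.2⟩

theorem dif_of_hol {τ : E ≃ₜ E'} (h : Hol S S' τ) : Dif S S' τ := by
  intro i j z hz z' hz' he
  obtain ⟨θ, h1, h2⟩ := h i j z hz z' hz' he
  refine ⟨θ, h1.tr, ?_⟩
  rw [Vale.Agent.P281.H864.K.det_fderiv_real h1.1.differentiableAt]
  exact pow_pos (norm_pos_iff.2 h2) 2

/-- the transition maps at the near points -/
theorem HTr.near {i : Fin S.N} {j : Fin S'.N} {z z' : Cm d} {θ : Cm d → Cm d}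
    (h : HTr S S' τ i j z z' θ) : ∀ᶠ u in 𝓝 z, HTr S S' τ i j u (θ u) θ := by
  filter_upwards [h.1.eventually_analyticAt, h.2.2.eventually_nhds] with u a b
  exact ⟨a, rfl, b⟩

/-- two transition maps -/
theorem HTr.det_eq {i : Fin S.N} {j k : Fin S'.N} {z z' z'' : Cm d} {θ θ' : Cm d → Cm d}
    (h : HTr S S' τ i j z z' θ) (h' : HTr S S' τ i k z z'' θ') (hz' : z' ∈ ball (0 : Cm d) 3)
    (hz'' : z'' ∈ ball (0 : Cm d) 3) {s : Fin S'.N → Cm d → ℂ} (hs : HolD S' s) :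
    s j z' * (H64.TK.jac θ z).det = s k z'' * (H64.TK.jac θ' z).det := by
  have h1 : S'.σ j z' = (1 : Γ') • S'.σ k z'' := by
    rw [one_smul, ← h.2.1, ← h'.2.1, ← h.2.2.self_of_nhds, ← h'.2.2.self_of_nhds]
  obtain ⟨η, k1, k2, k3⟩ := S'.hol j k z' hz' z'' hz'' 1 h1
  have k3' : ∀ᶠ u in 𝓝 z', S'.σ j u = S'.σ k (η u) := by
    filter_upwards [k3] with u hu
    rw [hu, one_smul]
  have ht : Tendsto θ (𝓝 z) (𝓝 z') := by
    have := h.1.continuousAt.tendsto
    rwa [h.2.1] at this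
  have ht' : Tendsto θ' (𝓝 z) (𝓝 z'') := by
    have := h'.1.continuousAt.tendsto
    rwa [h'.2.1] at this
  have hη : Tendsto η (𝓝 z') (𝓝 z'') := by
    have := k1.continuousAt.tendsto
    rwa [k2] at this
  have h2 : (fun u => η (θ u)) =ᶠ[𝓝 z] θ' := by
    filter_upwards [h.2.2, h'.2.2, ht.eventually k3', ht'.eventually (isOpen_ball.mem_nhds hz''),
      (hη.comp ht).eventually (isOpen_ball.mem_nhds hz'')] with u a1 a2 a3 a4 a5
    refine (S'.inj k _ a5 _ a4 1 ?_).2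
    rw [one_smul]
    show S'.σ k (η (θ u)) = S'.σ k (θ' u)
    rw [← a3, ← a1, a2]
  have h3 := hs.change j k z' hz' z'' hz'' η k1 k2 k3'
  have h4 : H64.TK.jac θ' z = H64.TK.jac η z' * H64.TK.jac θ z := by
    rw [← Vale.Agent.P281.H864.K.jac_congr h2]
    exact Vale.Agent.P281.H864.K.jac_comp h.2.1 k1.differentiableAt h.1.differentiableAt
  rw [h3, h4, Matrix.det_mul, mul_assoc]

open Classical in
/-- the pull-back -/
def pb (S : Sheets d E Γ) (S' : Sheets d E' Γ') (τ : E → E') (s : Fin S'.N → Cm d → ℂ)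
    (i : Fin S.N) (z : Cm d) : ℂ :=
  if h : ∃ (j : Fin S'.N) (z' : Cm d) (θ : Cm d → Cm d), z' ∈ ball (0 : Cm d) 3 ∧
    HTr S S' τ i j z z' θ then
    s h.choose h.choose_spec.choose * (H64.TK.jac h.choose_spec.choose_spec.choose z).det else 0

theorem pb_eq {s : Fin S'.N → Cm d → ℂ} (hs : HolD S' s) {i : Fin S.N} {j : Fin S'.N}
    {z z' : Cm d} {θ : Cm d → Cm d} (hz' : z' ∈ ball (0 : Cm d) 3) (h : HTr S S' τ i j z z' θ) :
    pb S S' τ s i z = s j z' * (H64.TK.jac θ z).det := by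
  have h0 : ∃ (j : Fin S'.N) (z' : Cm d) (θ : Cm d → Cm d), z' ∈ ball (0 : Cm d) 3 ∧
    HTr S S' τ i j z z' θ := ⟨j, z', θ, hz', h⟩
  rw [pb, dif_pos h0]
  have h1 := h0.choose_spec.choose_spec.choose_spec
  exact h1.2.det_eq h h1.1 hz' hs

theorem exists_hTr (hτ : Hol S S' τ) (i : Fin S.N) {z : Cm d} (hz : z ∈ ball (0 : Cm d) 3) :
    ∃ (j : Fin S'.N) (z' : Cm d) (θ : Cm d → Cm d), z' ∈ ball (0 : Cm d) 3 ∧
      HTr S S' τ i j z z' θ ∧ (H64.TK.jac θ z).det ≠ 0 := by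
  obtain ⟨γ, j, z', h1, h2⟩ := S'.cover (τ (S.σ i z))
  rw [Subsingleton.elim γ 1, one_smul] at h2
  have hz' : z' ∈ ball (0 : Cm d) 3 := by
    rw [mem_ball_zero_iff]
    linarith
  obtain ⟨θ, h3, h4⟩ := hτ i j z hz z' hz' h2.symm
  exact ⟨j, z', θ, hz', h3, h4⟩

theorem holD_pb (hτ : Hol S S' τ) {s : Fin S'.N → Cm d → ℂ} (hs : HolD S' s) :
    HolD S (pb S S' τ s) where
  hol i z hz := by
    obtain ⟨j, z', θ, hz', h, -⟩ := exists_hTr hτ i hz
    have h1 : pb S S' τ s i =ᶠ[𝓝 z] fun u => s j (θ u) * (H64.TK.jac θ u).det := by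
      have e1 : ∀ᶠ u in 𝓝 z, θ u ∈ ball (0 : Cm d) 3 := h.1.continuousAt.eventually (by
        rw [h.2.1]
        exact isOpen_ball.mem_nhds hz')
      filter_upwards [h.near, e1] with u a b
      exact pb_eq hs b a
    have h2 : DifferentiableAt ℂ (fun u => s j (θ u) * (H64.TK.jac θ u).det) z := by
      refine DifferentiableAt.mul ?_ (analyticAt_det h.1).differentiableAt
      refine DifferentiableAt.comp z ?_ h.1.differentiableAt
      rw [h.2.1]
      exact (hs.hol j).differentiableAt (isOpen_ball.mem_nhds hz')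
    exact (h2.congr_of_eventuallyEq h1).differentiableWithinAt
  change i₁ i₂ z₁ hz₁ z₂ hz₂ θ₀ hθ₀ hθz hev := by
    obtain ⟨j, z', θ, hz', h, -⟩ := exists_hTr hτ i₂ hz₂
    rw [pb_eq hs hz' h]
    have ht : Tendsto θ₀ (𝓝 z₁) (𝓝 z₂) := by
      have := hθ₀.continuousAt.tendsto
      rwa [hθz] at this
    have h1 : HTr S S' τ i₁ j z₁ z' (fun u => θ (θ₀ u)) := by
      refine ⟨AnalyticAt.fun_comp (by rw [hθz]; exact h.1) hθ₀, (congrArg θ hθz).trans h.2.1, ?_⟩
      filter_upwards [hev, ht.eventually h.2.2] with u a b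
      rw [a, b]
    rw [pb_eq hs hz' h1, Vale.Agent.P281.H864.K.jac_comp hθz h.1.differentiableAt
      hθ₀.differentiableAt, Matrix.det_mul, mul_assoc]

end pb

end Vale.Agent.P281.H511.TS
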