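import Vale.Agent.P281.H511.TS.Slice
import Vale.Agent.P281.H511.TS.Mk

/-!
# P281, project T-S (helper511), block G2: change of the periods and of the forms
-/

open Set Filter Metric MeasureTheory Vale.Agent.P281 Vale.Agent.P281.H713 Vale.Agent.P272.K
open scoped Topology ContDiff Manifold ComplexConjugate ENNReal

set_option linter.unusedSectionVars false

noncomputable section

namespace Vale.Agent.P281.H511.TS

open Vale.Agent.P281.H64.TK Vale.Agent.P281.H64.TK.TS Vale.Agent.P281.H603.K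
open Vale.Agent.P281.H603.TE (sub fsub fW idx rep exists_rep ccs sub_sigma fsub_sigma')
open Vale.Agent.P281.H624.TS (cl2_hol cl2_kah sf2_pull kf2_pull fd_mulVec)

attribute [local instance] ccs

/-! ### Pull-backs -/

section pull
variable {E Γ : Type} [TopologicalSpace E] [Group Γ] [MulAction Γ E] [Subsingleton Γ]
  {E' Γ' : Type} [TopologicalSpace E'] [Group Γ'] [MulAction Γ' E'] [Subsingleton Γ']
  {S : Sheets 2 E Γ} {S' : Sheets 2 E' Γ'} {τ : E → E'}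

theorem tr_hTr (hτ : Hol S S' τ) {i : Fin S.N} {j : Fin S'.N} {z z' : Cm 2}
    (hz : z ∈ ball (0 : Cm 2) 3) (hz' : z' ∈ ball (0 : Cm 2) 3) {ψ : Cm 2 → Cm 2}
    (h : Tr S S' τ i j z z' ψ) : ∃ θ, HTr S S' τ i j z z' θ ∧ ψ =ᶠ[𝓝 z] θ := by
  have h1 : τ (S.σ i z) = S'.σ j z' := by
    rw [h.2.2.self_of_nhds, h.2.1]
  obtain ⟨θ, h2, -⟩ := hτ i j z hz z' hz' h1
  exact ⟨θ, h2, H864.TS.Tr.unique h h2.tr hz'⟩

theorem pull_sf2 (hτ : Hol S S' τ) {s : Fin S.N → Cm 2 → ℂ} {s' : Fin S'.N → Cm 2 → ℂ}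
    (h : ∀ i j, ∀ z ∈ ball (0 : Cm 2) 3, ∀ z' ∈ ball (0 : Cm 2) 3, ∀ θ,
      HTr S S' τ i j z z' θ → s i z = s' j z' * (H64.TK.jac θ z).det) :
    Pull2 S S' τ (fun i z => sf2 (s i z)) (fun i z => sf2 (s' i z)) := by
  intro i j z hz z' hz' ψ hψ u v
  obtain ⟨θ, h1, h2⟩ := tr_hTr hτ hz hz' hψ
  rw [fd_mulVec h1.1 h2, fd_mulVec h1.1 h2]
  show sf2 (s i z) u v = sf2 (s' j z') _ _
  rw [h i j z hz z' hz' θ h1, sf2_pull]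

theorem pull_kf2 (hτ : Hol S S' τ) {w : Fin S.N → Cm 2 → Matrix (Fin 2) (Fin 2) ℂ}
    {w' : Fin S'.N → Cm 2 → Matrix (Fin 2) (Fin 2) ℂ}
    (h : ∀ i j, ∀ z ∈ ball (0 : Cm 2) 3, ∀ z' ∈ ball (0 : Cm 2) 3, ∀ θ,
      HTr S S' τ i j z z' θ →
        w i z = (H64.TK.jac θ z).transpose * w' j z' * (H64.TK.jac θ z).map conj) :
    Pull2 S S' τ (fun i z => kf2 (w i z)) (fun i z => kf2 (w' i z)) := by
  intro i j z hz z' hz' ψ hψ u v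
  obtain ⟨θ, h1, h2⟩ := tr_hTr hτ hz hz' hψ
  rw [fd_mulVec h1.1 h2, fd_mulVec h1.1 h2]
  show kf2 (w i z) u v = kf2 (w' j z') _ _
  rw [h i j z hz z' hz' θ h1, kf2_pull]

theorem sf2_mul (c s : ℂ) : sf2 (c * s) = c • sf2 s := by
  refine ContinuousLinearMap.ext fun u => ContinuousLinearMap.ext fun v => ?_
  show c * s * (u 0 * v 1 - u 1 * v 0) = c * (s * (u 0 * v 1 - u 1 * v 0))
  ring

theorem holD_mul {s : Fin S.N → Cm 2 → ℂ} (hs : HolD S s) (c : ℂ) :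
    HolD S fun i z => c * s i z where
  hol i := (hs.hol i).const_mul c
  change i j z hz z' hz' θ h1 h2 h3 := by
    rw [hs.change i j z hz z' hz' θ h1 h2 h3, mul_assoc]

/-- **the change of the periods** -/
theorem k3_change [T2Space E] [ContinuousConstSMul Γ E] [T2Space E'] [ContinuousConstSMul Γ' E']
    (hPM : PullMarkStmt) (hTM : TwoMarkStmt) {τ : E ≃ₜ E'} (hτ : Hol S S' τ) {n : ℕ}
    {M : Mark2 S n} {M' : Mark2 S' n} {B : Matrix (Fin n) (Fin n) ℝ} (hB : Bm M = B)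
    (hB' : Bm M' = B) {v : Fin n → ℝ} {w : Fin S.N → Cm 2 → Matrix (Fin 2) (Fin 2) ℂ}
    {w' : Fin S'.N → Cm 2 → Matrix (Fin 2) (Fin 2) ℂ} (hw : Kah S w) (hw' : Kah S' w')
    (hv : kv M w = v) (hv' : kv M' w' = v)
    (hm : ∀ i j, ∀ z ∈ ball (0 : Cm 2) 3, ∀ z' ∈ ball (0 : Cm 2) 3, ∀ θ,
      HTr S S' τ i j z z' θ →
        w i z = (H64.TK.jac θ z).transpose * w' j z' * (H64.TK.jac θ z).map conj)
    {s : Fin S.N → Cm 2 → ℂ} {s' : Fin S'.N → Cm 2 → ℂ} (hs : HolD S s) (hs' : HolD S' s')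
    {c : ℂ} (hc : ∀ i j, ∀ z ∈ ball (0 : Cm 2) 3, ∀ z' ∈ ball (0 : Cm 2) 3, ∀ θ,
      HTr S S' τ i j z z' θ → c * s i z = s' j z' * (H64.TK.jac θ z).det) :
    IsK3Change B v (M.cl fun i z => sf2 (s i z)) (M'.cl fun i z => sf2 (s' i z)) c := by
  obtain ⟨M₁, h1, h2⟩ := hPM E Γ S E' Γ' S' τ n M' (dif_of_hol hτ)
  obtain ⟨A, hA1, hA2, hA3⟩ := hTM E Γ S n M M₁
  have e1 : M'.cl (fun i z => sf2 (s' i z)) =
      c • (A.map (Int.cast : ℤ → ℂ)).mulVec (M.cl fun i z => sf2 (s i z)) := by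
    have a1 := h2 (fun i z => sf2 (c * s i z)) (fun i z => sf2 (s' i z))
      (cl2_hol (holD_mul hs c)) (cl2_hol hs') (pull_sf2 hτ hc)
    have a2 : (fun (i : Fin S.N) (z : Cm 2) => sf2 (c * s i z)) =
        fun i z => c • sf2 (s i z) := by
      funext i z
      exact sf2_mul _ _
    rw [a2, cl_smul M₁ (cl2_hol hs) c, hA2 _ (cl2_hol hs)] at a1
    exact a1.symm
  have e2 : M'.cl (fun i z => kf2 (w' i z)) =
      (A.map (Int.cast : ℤ → ℂ)).mulVec (M.cl fun i z => kf2 (w i z)) := by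
    rw [← hA2 _ (cl2_kah hw)]
    exact (h2 _ _ (cl2_kah hw) (cl2_kah hw') (pull_kf2 hτ hm)).symm
  refine ⟨A, hA1, ?_, ?_, e1⟩
  · rw [← hv]
    conv_rhs => rw [hv, ← hv']
    funext k
    have a3 := congrArg Complex.re (congrFun e2 k)
    have a4 : (kv M' w') k = (M'.cl (fun i z => kf2 (w' i z)) k).re := rfl
    rw [a4, a3]
    simp only [Matrix.mulVec, dotProduct, Matrix.map_apply, Complex.re_sum]
    refine Finset.sum_congr rfl fun l _ => ?_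
    show ((A k l : ℤ) : ℝ) * (M.cl (fun i z => kf2 (w i z)) l).re = _
    simp
  · rw [h1, hB', hB] at hA3
    exact hA3

end pull

variable {p : ℕ} {Z Y : Type} [TopologicalSpace Z] [T2Space Z] [ChartedSpace (Cm (p + 2)) Z]
  [IsManifold 𝓘(ℂ, Cm (p + 2)) ω Z] [TopologicalSpace Y] [T2Space Y] [ChartedSpace (Cm p) Y]
  [IsManifold 𝓘(ℂ, Cm p) ω Y] {f : Z → Y}
  {w : Chart (p + 2) Z → Cm (p + 2) → Matrix (Fin (p + 2)) (Fin (p + 2)) ℂ} {N n : ℕ}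
  {B : Matrix (Fin n) (Fin n) ℝ} {v : Fin n → ℝ}

/-- comparison of the universal coverings -/
theorem cmpK (hK : KStmt) (hf : ContMDiff 𝓘(ℂ, Cm (p + 2)) 𝓘(ℂ, Cm p) ω f) (hw : IsKahler w)
    (L L' : LocK (p := p) f w N B v) {y : Y} (hy : y ∈ U L) (hy' : y ∈ U L') :
    ∃ τ : L.E ≃ₜ L'.E, (∀ e, L'.q (L'.χ y) (τ e) = L.q (L.χ y) e) ∧
      Hol (SK L hy) (SK L' hy') τ ∧
      ∀ i j, ∀ z ∈ ball (0 : Cm 2) 3, ∀ z' ∈ ball (0 : Cm 2) 3, ∀ θ,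
        HTr (SK L hy) (SK L' hy') τ i j z z' θ →
          fW (⊥ : Subgroup L.Γ) L.W (L.χ y) i z = (H64.TK.jac θ z).transpose *
            fW (⊥ : Subgroup L'.Γ) L'.W (L'.χ y) j z' * (H64.TK.jac θ z).map conj := by
  obtain ⟨τ, ρ, hτ, hq, hol, hmet⟩ := hK p 2 Z Y f w L.E L.Γ L.𝓕 L.q L.χ L'.E L'.Γ L'.𝓕 L'.q L'.χ
    L.W L'.W two_pos hf L.model L'.model hw L.pull L'.pull _ (L.hT' hy.2) _ (L'.hT' hy'.2)
    (by rw [L.χ.left_inv hy.1, L'.χ.left_inv hy'.1])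
  have key : ∀ (i : IX L) (j : IX L') (u u' : Cm 2),
      τ (sg L i (L.χ y) u) = sg L' j (L'.χ y) u' ↔
      τ (L.𝓕.σ (idx ⊥ L.𝓕.N i).1 (L.χ y) u) =
        ((ρ (rep ⊥ (idx ⊥ L.𝓕.N i).2))⁻¹ * rep ⊥ (idx ⊥ L'.𝓕.N j).2) •
          L'.𝓕.σ (idx ⊥ L'.𝓕.N j).1 (L'.χ y) u' := by
    intro i j u u'
    have h1 : τ (sg L i (L.χ y) u) = ρ (rep ⊥ (idx ⊥ L.𝓕.N i).2) •
      τ (L.𝓕.σ (idx ⊥ L.𝓕.N i).1 (L.χ y) u) :=
        hτ (rep ⊥ (idx ⊥ L.𝓕.N i).2) (L.𝓕.σ (idx ⊥ L.𝓕.N i).1 (L.χ y) u)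
    have h2 : sg L' j (L'.χ y) u' = rep ⊥ (idx ⊥ L'.𝓕.N j).2 •
      L'.𝓕.σ (idx ⊥ L'.𝓕.N j).1 (L'.χ y) u' := rfl
    rw [h1, h2, mul_smul, eq_inv_smul_iff]
  refine ⟨τ, hq, fun i j z hz z' hz' he => ?_, fun i j z hz z' hz' θ hθ => ?_⟩
  · obtain ⟨θ, k1, k2, k3, k4⟩ := hol _ _ z hz z' hz' _ ((key i j z z').1 he)
    refine ⟨θ, ⟨k1, k2, ?_⟩, k3⟩
    filter_upwards [k4] with u hu
    exact (key i j u (θ u)).2 hu
  · refine hmet (idx ⊥ L.𝓕.N i).1 (idx ⊥ L'.𝓕.N j).1 z hz z' hz'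
      ((ρ (rep ⊥ (idx ⊥ L.𝓕.N i).2))⁻¹ * rep ⊥ (idx ⊥ L'.𝓕.N j).2) θ hθ.1 hθ.2.1 ?_
    filter_upwards [hθ.2.2] with u hu
    exact (key i j u (θ u)).1 hu

/-- **change** -/
theorem change (hK : KStmt) (hPM : PullMarkStmt) (hTM : TwoMarkStmt)
    (hf : ContMDiff 𝓘(ℂ, Cm (p + 2)) 𝓘(ℂ, Cm p) ω f) (hw : IsKahler w)
    (L L' : LocK (p := p) f w N B v) {y : Y} (hy : y ∈ U L) (hy' : y ∈ U L') :
    ∃ c : ℂ, IsK3Change B v (L.P (L.χ y)) (L'.P (L'.χ y)) c ∧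
      ∀ x, f x = y → ∀ ξ : Fin 2 → Cm (p + 2),
        (∀ l, mfderiv 𝓘(ℂ, Cm (p + 2)) 𝓘(ℂ, Cm p) f x (ξ l) = 0) →
          eta L' x ξ = c ^ N * eta L x ξ := by
  obtain ⟨τ, hq, hτ, hmet⟩ := cmpK hK hf hw L L' hy hy'
  have hS := L.holS.form _ (L.hT' hy.2) hy.2
  have hS' := L'.holS.form _ (L'.hT' hy'.2) hy'.2
  obtain ⟨c, hc⟩ := hone_of (S := SK L hy) (L.one _ hy.2) hS (L.holS.ne _ hy.2)
    (holD_pb (S := SK L hy) (S' := SK L' hy') hτ hS')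
  have hc' : ∀ i j, ∀ z ∈ ball (0 : Cm 2) 3, ∀ z' ∈ ball (0 : Cm 2) 3, ∀ θ,
      HTr (SK L hy) (SK L' hy') τ i j z z' θ →
        c * L.s i (L.χ y, z) = L'.s j (L'.χ y, z') * (H64.TK.jac θ z).det := by
    intro i j z hz z' hz' θ hθ
    rw [← hc i z hz]
    exact pb_eq (S := SK L hy) (S' := SK L' hy') hS' hz' hθ
  refine ⟨c, ?_, ?_⟩
  · rw [L.per _ hy.2, L'.per _ hy'.2]
    exact k3_change (S := SK L hy) (S' := SK L' hy') hPM hTM hτ (L.form _ hy.2) (L'.form _ hy'.2)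
      (H603.TE.kah_fW ⊥ L.kfam (L.hT' hy.2)) (H603.TE.kah_fW ⊥ L'.kfam (L'.hT' hy'.2))
      (L.kah _ hy.2) (L'.kah _ hy'.2) hmet hS hS' hc'
  · intro x hx ξ hξ
    subst hx
    obtain ⟨i, ζ, h⟩ := chart hf hy
    obtain ⟨j₀, ζ', h'⟩ := chart hf hy'
    have h1 : L'.q (L'.χ (f x)) (sg L' j₀ (L'.χ (f x)) (ζ' x)) =
        L'.q (L'.χ (f x)) (τ (sg L i (L.χ (f x)) (ζ x))) := by
      rw [hq, h'.2.2.self_of_nhds, h.2.2.self_of_nhds]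
    obtain ⟨γ, hγ⟩ := (L'.model.eq _ (L'.hT' hy'.2) _ _).1 h1
    rw [← sg_sF γ j₀ (L'.hT' hy'.2)] at hγ
    have h'' := h'.shf hf hy' γ
    obtain ⟨θ, hθ, -⟩ := hτ i (sF γ j₀) (ζ x) h.2.1 (ζ' x) h'.2.1 hγ.symm
    have h3 : ∀ᶠ u in 𝓝 (ζ x), par L (f x) i u = par L' (f x) (sF γ j₀) (θ u) := by
      filter_upwards [hθ.2.2] with u hu
      have a1 : τ (sg L i (L.χ (f x)) u) = sg L' (sF γ j₀) (L'.χ (f x)) (θ u) := hu
      show L.q _ _ = L'.q _ _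
      rw [← a1, hq]
    have h4 := Dt_cmp hf hy hy' h h'' hθ.1 hθ.2.1 h3 hξ
    rw [eta_eq hf hy h hξ, eta_eq hf hy' h'' hξ, h4, ← mul_assoc,
      ← hc' i (sF γ j₀) (ζ x) h.2.1 (ζ' x) h'.2.1 θ hθ, ← mul_pow, mul_assoc]

end Vale.Agent.P281.H511.TS
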