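import Vale.Agent.P281.H511.TS.Shf
import Vale.Agent.P281.H603.TE.AlbC
import Vale.Agent.P281.H485.U.Grad

/-!
# P281, project T-S (helper511), block G2: the `N`-canonical form `s ^ N` on the fibres
-/

open Set Filter Metric MeasureTheory Vale.Agent.P281 Vale.Agent.P281.H713 Vale.Agent.P272.K
open scoped Topology ContDiff Manifold ComplexConjugate

set_option linter.unusedSectionVars false

noncomputable section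

namespace Vale.Agent.P281.H511.TS

open Vale.Agent.P281.H64.TK Vale.Agent.P281.H64.TK.TS Vale.Agent.P281.H603.K
open Vale.Agent.P281.H603.TE (sub fsub fW idx rep exists_rep ccs sub_sigma fsub_sigma')

attribute [local instance] ccs

theorem hone_of {d : ℕ} {E Γ : Type} [TopologicalSpace E] [Group Γ] [MulAction Γ E]
    {S : Sheets d E Γ} (h : H20One S) {s : Fin S.N → Cm d → ℂ} (hs : HolD S s)
    (hne : ∃ i, ∃ z ∈ ball (0 : Cm d) 3, s i z ≠ 0) {s' : Fin S.N → Cm d → ℂ} (hs' : HolD S s') :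
    ∃ c : ℂ, ∀ i, ∀ z ∈ ball (0 : Cm d) 3, s' i z = c * s i z := by
  obtain ⟨s₀, -, -, h1⟩ := h
  obtain ⟨c, hc⟩ := h1 s hs
  obtain ⟨c', hc'⟩ := h1 s' hs'
  obtain ⟨i₀, z₀, hz₀, h0⟩ := hne
  have hc0 : c ≠ 0 := fun h2 => h0 (by rw [hc i₀ z₀ hz₀, h2, zero_mul])
  refine ⟨c' / c, fun i z hz => ?_⟩
  rw [hc i z hz, hc' i z hz]
  field_simp

section dif
variable {p : ℕ} {Z : Type} [TopologicalSpace Z] [ChartedSpace (Cm (p + 2)) Z]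

/-- the determinant of the differentials of the coordinates -/
def Dt (ζ : Z → Cm 2) (x : Z) (ξ : Fin 2 → Cm (p + 2)) : ℂ :=
  (Matrix.of fun k l => J.dif (Cm (p + 2)) (fun z => ζ z k) x (ξ l)).det

theorem dif_coord {ζ : Z → Cm 2} {x : Z}
    (h : MDifferentiableAt 𝓘(ℂ, Cm (p + 2)) 𝓘(ℂ, Cm 2) ζ x) (k : Fin 2) (ξ : Cm (p + 2)) :
    J.dif (Cm (p + 2)) (fun z => ζ z k) x ξ =
      (mfderiv 𝓘(ℂ, Cm (p + 2)) 𝓘(ℂ, Cm 2) ζ x ξ : Cm 2) k := by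
  have h1 : MDifferentiableAt 𝓘(ℂ, Cm 2) 𝓘(ℂ, ℂ)
      (ContinuousLinearMap.proj (R := ℂ) (φ := fun _ : Fin 2 => ℂ) k) (ζ x) :=
    (ContinuousLinearMap.differentiableAt _).mdifferentiableAt
  have h2 := mfderiv_comp_apply x (g := ContinuousLinearMap.proj (R := ℂ)
    (φ := fun _ : Fin 2 => ℂ) k) (f := ζ) h1 h ξ
  have h3 : mfderiv 𝓘(ℂ, Cm 2) 𝓘(ℂ, ℂ)
      (ContinuousLinearMap.proj (R := ℂ) (φ := fun _ : Fin 2 => ℂ) k) (ζ x) =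
      ContinuousLinearMap.proj (R := ℂ) (φ := fun _ : Fin 2 => ℂ) k := by
    rw [mfderiv_eq_fderiv]
    exact ContinuousLinearMap.fderiv _
  rw [h3] at h2
  exact h2

theorem Dt_eq {ζ : Z → Cm 2} {x : Z}
    (h : MDifferentiableAt 𝓘(ℂ, Cm (p + 2)) 𝓘(ℂ, Cm 2) ζ x) (ξ : Fin 2 → Cm (p + 2)) :
    Dt ζ x ξ = (Matrix.of fun k l =>
      (mfderiv 𝓘(ℂ, Cm (p + 2)) 𝓘(ℂ, Cm 2) ζ x (ξ l) : Cm 2) k).det := by
  unfold Dt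
  congr 1
  ext k l
  exact dif_coord h k (ξ l)

end dif

variable {p : ℕ} {Z Y : Type} [TopologicalSpace Z] [T2Space Z] [ChartedSpace (Cm (p + 2)) Z]
  [IsManifold 𝓘(ℂ, Cm (p + 2)) ω Z] [TopologicalSpace Y] [T2Space Y] [ChartedSpace (Cm p) Y]
  [IsManifold 𝓘(ℂ, Cm p) ω Y] {f : Z → Y}
  {w : Chart (p + 2) Z → Cm (p + 2) → Matrix (Fin (p + 2)) (Fin (p + 2)) ℂ} {N n : ℕ}
  {B : Matrix (Fin n) (Fin n) ℝ} {v : Fin n → ℝ} (L : LocK (p := p) f w N B v)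

/-- the open set of `Y` over which `L` describes `f` -/
def U : Set Y := L.χ.source ∩ L.χ ⁻¹' L.T'

theorem isOpen_U : IsOpen (U L) := L.χ.isOpen_inter_preimage L.isOpen'

/-- the numbers of the sheets of the universal covering -/
abbrev IX : Type := Fin (fsub L.𝓕 (⊥ : Subgroup L.Γ)).N

/-- the sheets of the universal covering -/
abbrev sg (i : IX L) (t : Cm p) (z : Cm 2) : L.E := (fsub L.𝓕 (⊥ : Subgroup L.Γ)).σ i t z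

/-- the universal covering over `y` -/
abbrev SK {y : Y} (hy : y ∈ U L) : Sheets 2 L.E (⊥ : Subgroup L.Γ) :=
  sub (L.𝓕.at (L.χ y) (L.hT' hy.2)) ⊥

theorem contMDiffAt_χ {y : Y} (hy : y ∈ U L) : ContMDiffAt 𝓘(ℂ, Cm p) 𝓘(ℂ, Cm p) ω L.χ y :=
  contMDiffAt_of_mem_maximalAtlas (IsManifold.subset_maximalAtlas L.model.atlas) hy.1

theorem q_smul {y : Y} (hy : y ∈ U L) (γ : L.Γ) (e : L.E) :
    L.q (L.χ y) (γ • e) = L.q (L.χ y) e :=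
  ((L.model.eq _ (L.hT' hy.2) _ _).2 ⟨γ, rfl⟩).symm

theorem eventually_mem {x : Z} (hf : ContMDiff 𝓘(ℂ, Cm (p + 2)) 𝓘(ℂ, Cm p) ω f)
    (hx : f x ∈ U L) : ∀ᶠ x' in 𝓝 x, f x' ∈ U L :=
  hf.continuous.continuousAt.eventually ((isOpen_U L).mem_nhds hx)

/-- `ζ` is a coordinate near `x`, for the sheet `i` -/
def IsCo (x : Z) (i : IX L) (ζ : Z → Cm 2) : Prop :=
  ContMDiffAt 𝓘(ℂ, Cm (p + 2)) 𝓘(ℂ, Cm 2) ω ζ x ∧ ζ x ∈ ball (0 : Cm 2) 3 ∧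
    ∀ᶠ z in 𝓝 x, L.q (L.χ (f z)) (sg L i (L.χ (f z)) (ζ z)) = z

variable {L}

theorem exists_co {x : Z} (hf : ContMDiff 𝓘(ℂ, Cm (p + 2)) 𝓘(ℂ, Cm p) ω f) (hx : f x ∈ U L)
    {i : IX L} {z : Cm 2} (hz : z ∈ ball (0 : Cm 2) 3)
    (hxz : L.q (L.χ (f x)) (sg L i (L.χ (f x)) z) = x) : ∃ ζ, IsCo L x i ζ ∧ ζ x = z := by
  have h0 : L.q (L.χ (f x)) (L.𝓕.σ (idx ⊥ L.𝓕.N i).1 (L.χ (f x)) z) = x := by
    rw [← q_smul L hx (rep ⊥ (idx ⊥ L.𝓕.N i).2)]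
    exact hxz
  obtain ⟨ζ, h2, h3, h4⟩ := L.model.coord (idx ⊥ L.𝓕.N i).1 _ (L.hT' hx.2) z hz
  rw [h0] at h2 h3 h4
  refine ⟨ζ, ⟨h2, by rw [h3]; exact hz, ?_⟩, h3⟩
  filter_upwards [h4, eventually_mem L hf hx] with z' a b
  have h5 := q_smul L b (rep ⊥ (idx ⊥ L.𝓕.N i).2)
    (L.𝓕.σ (idx ⊥ L.𝓕.N i).1 (L.χ (f z')) (ζ z'))
  rw [a] at h5
  exact h5

/-- coordinates near a point -/
theorem chart {x : Z} (hf : ContMDiff 𝓘(ℂ, Cm (p + 2)) 𝓘(ℂ, Cm p) ω f) (hx : f x ∈ U L) :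
    ∃ (i : IX L) (ζ : Z → Cm 2), IsCo L x i ζ := by
  obtain ⟨e, he⟩ := L.model.surj x hx.1 (L.hT' hx.2)
  obtain ⟨γ, i, z, hz, hγ⟩ := (fsub L.𝓕 (⊥ : Subgroup L.Γ)).cover _ (L.hT' hx.2) e
  have h1 : L.q (L.χ (f x)) (sg L i (L.χ (f x)) z) = x := by
    rw [← q_smul L hx (γ : L.Γ)]
    have h2 : (γ : L.Γ) • sg L i (L.χ (f x)) z = e := hγ
    rw [h2, he]
  obtain ⟨ζ, h2, -⟩ := exists_co hf hx (Sh.mem3 hz) h1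
  exact ⟨i, ζ, h2⟩

theorem IsCo.near {x : Z} {i : IX L} {ζ : Z → Cm 2} (h : IsCo L x i ζ) :
    ∀ᶠ z in 𝓝 x, IsCo L z i ζ := by
  obtain ⟨h1, h2, h3⟩ := h
  filter_upwards [(contMDiffAt_iff_contMDiffAt_nhds (by simp)).1 h1,
    h1.continuousAt.eventually (isOpen_ball.mem_nhds h2), eventually_eventually_nhds.2 h3]
    with z a b c
  exact ⟨a, b, c⟩

/-- the same point in the same sheet -/
theorem eq_of_q {t : Cm p} (ht : t ∈ L.𝓕.T) {j : IX L} {u u' : Cm 2}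
    (hu : u ∈ ball (0 : Cm 2) 3) (hu' : u' ∈ ball (0 : Cm 2) 3)
    (h : L.q t (sg L j t u) = L.q t (sg L j t u')) : u = u' := by
  obtain ⟨δ, hδ⟩ := (L.model.eq _ ht _ _).1 h
  have h1 : ((rep ⊥ (idx ⊥ L.𝓕.N j).2)⁻¹ * δ * rep ⊥ (idx ⊥ L.𝓕.N j).2) •
      L.𝓕.σ (idx ⊥ L.𝓕.N j).1 t u = L.𝓕.σ (idx ⊥ L.𝓕.N j).1 t u' := by
    rw [mul_smul, mul_smul]
    have h2 : δ • rep ⊥ (idx ⊥ L.𝓕.N j).2 • L.𝓕.σ (idx ⊥ L.𝓕.N j).1 t u =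
      rep ⊥ (idx ⊥ L.𝓕.N j).2 • L.𝓕.σ (idx ⊥ L.𝓕.N j).1 t u' := hδ
    rw [h2, inv_smul_smul]
  exact (L.𝓕.inj _ t ht u hu u' hu' _ h1).2

/-- the numbers of the translates of the sheets -/
abbrev sF (γ : L.Γ) (i : IX L) : IX L := shf (N := L.𝓕.N) γ i

theorem sg_sF (γ : L.Γ) (i : IX L) {t : Cm p} (ht : t ∈ L.𝓕.T) (z : Cm 2) :
    sg L (sF γ i) t z = γ • sg L i t z := sub_shf (S := L.𝓕.at t ht) γ i z

/-- change of coordinates -/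
theorem trans {x : Z} (hf : ContMDiff 𝓘(ℂ, Cm (p + 2)) 𝓘(ℂ, Cm p) ω f) (hx : f x ∈ U L)
    {i j : IX L} {ζ ζ' : Z → Cm 2} (h : IsCo L x i ζ) (h' : IsCo L x j ζ') :
    ∃ (γ : L.Γ) (θ : Cm p × Cm 2 → Cm 2), AnalyticAt ℂ θ (L.χ (f x), ζ x) ∧
      θ (L.χ (f x), ζ x) = ζ' x ∧
      (∀ᶠ r in 𝓝 (L.χ (f x), ζ x), sg L (sF γ i) r.1 r.2 = sg L j r.1 (θ r)) ∧
      ∀ᶠ z in 𝓝 x, ζ' z = θ (L.χ (f z), ζ z) := by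
  have hT := L.hT' hx.2
  have h1 : L.q (L.χ (f x)) (sg L i (L.χ (f x)) (ζ x)) =
      L.q (L.χ (f x)) (sg L j (L.χ (f x)) (ζ' x)) :=
    h.2.2.self_of_nhds.trans h'.2.2.self_of_nhds.symm
  obtain ⟨γ, hγ⟩ := (L.model.eq _ hT _ _).1 h1
  rw [← sg_sF γ i hT] at hγ
  obtain ⟨θ, k1, k2, k3⟩ := (fsub L.𝓕 (⊥ : Subgroup L.Γ)).hol (sF γ i) j _ hT (ζ x) h.2.1 (ζ' x)
    h'.2.1 1 (by rw [one_smul]; exact hγ)
  have k3' : ∀ᶠ r in 𝓝 (L.χ (f x), ζ x), sg L (sF γ i) r.1 r.2 = sg L j r.1 (θ r) := by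
    filter_upwards [k3] with r hr
    rw [one_smul] at hr
    exact hr
  refine ⟨γ, θ, k1, k2, k3', ?_⟩
  have hc : Tendsto (fun z => (L.χ (f z), ζ z)) (𝓝 x) (𝓝 (L.χ (f x), ζ x)) :=
    ((ContMDiffAt.comp x (g := L.χ) (f := f) (contMDiffAt_χ L hx) (hf x)).continuousAt).prodMk_nhds
      h.1.continuousAt
  have e1 : ∀ᶠ r in 𝓝 (L.χ (f x), ζ x), θ r ∈ ball (0 : Cm 2) 3 :=
    k1.continuousAt.eventually (by rw [k2]; exact isOpen_ball.mem_nhds h'.2.1)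
  filter_upwards [hc.eventually k3', hc.eventually e1, h.2.2, h'.2.2, eventually_mem L hf hx,
    h'.1.continuousAt.eventually (isOpen_ball.mem_nhds h'.2.1)] with z a1 a2 a3 a4 a5 a6
  have hT' := L.hT' a5.2
  refine eq_of_q (j := j) hT' a6 a2 ?_
  rw [a4, ← a1, sg_sF γ i hT', q_smul L a5, a3]

/-- derivatives along the fibres -/
theorem mfderiv_vert {F : Type} [NormedAddCommGroup F] [NormedSpace ℂ F] {x : Z}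
    (hf : ContMDiff 𝓘(ℂ, Cm (p + 2)) 𝓘(ℂ, Cm p) ω f) (hx : f x ∈ U L) {ζ : Z → Cm 2}
    (hζ : ContMDiffAt 𝓘(ℂ, Cm (p + 2)) 𝓘(ℂ, Cm 2) ω ζ x) {θ : Cm p × Cm 2 → F}
    (hθ : DifferentiableAt ℂ θ (L.χ (f x), ζ x)) {g : Z → F}
    (hg : ∀ᶠ z in 𝓝 x, g z = θ (L.χ (f z), ζ z)) {ξ : Cm (p + 2)}
    (hξ : mfderiv 𝓘(ℂ, Cm (p + 2)) 𝓘(ℂ, Cm p) f x ξ = 0) :
    (mfderiv 𝓘(ℂ, Cm (p + 2)) 𝓘(ℂ, F) g x ξ : F) =
      fderiv ℂ (fun u => θ (L.χ (f x), u)) (ζ x)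
        (mfderiv 𝓘(ℂ, Cm (p + 2)) 𝓘(ℂ, Cm 2) ζ x ξ : Cm 2) := by
  have h7 : MDifferentiableAt 𝓘(ℂ, Cm (p + 2)) 𝓘(ℂ, Cm p) (fun x' => L.χ (f x')) x :=
    (ContMDiffAt.comp x (g := L.χ) (f := f) (contMDiffAt_χ L hx) (hf x)).mdifferentiableAt
      (by simp)
  have h7' : MDifferentiableAt 𝓘(ℂ, Cm (p + 2)) 𝓘(ℂ, Cm 2) ζ x := hζ.mdifferentiableAt (by simp)
  have h8 : mfderiv 𝓘(ℂ, Cm (p + 2)) 𝓘(ℂ, Cm p) (fun x' => L.χ (f x')) x ξ = 0 := by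
    have h9 := mfderiv_comp_apply x (g := L.χ) (f := f)
      ((contMDiffAt_χ L hx).mdifferentiableAt (by simp)) ((hf x).mdifferentiableAt (by simp)) ξ
    have h10 : (L.χ : Y → Cm p) ∘ f = fun x' => L.χ (f x') := rfl
    rw [h10] at h9
    rw [h9, hξ]
    exact map_zero _
  have hP : MDifferentiableAt 𝓘(ℂ, Cm (p + 2)) 𝓘(ℂ, Cm p × Cm 2)
      (fun x' => (L.χ (f x'), ζ x')) x := by
    rw [modelWithCornersSelf_prod, ← chartedSpaceSelf_prod]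
    exact h7.prodMk h7'
  have hP0 : mfderiv 𝓘(ℂ, Cm (p + 2)) 𝓘(ℂ, Cm p × Cm 2) (fun x' => (L.χ (f x'), ζ x')) x ξ =
      ((0 : Cm p), (mfderiv 𝓘(ℂ, Cm (p + 2)) 𝓘(ℂ, Cm 2) ζ x ξ : Cm 2)) := by
    have h11 : mfderiv 𝓘(ℂ, Cm (p + 2)) (𝓘(ℂ, Cm p).prod 𝓘(ℂ, Cm 2))
      (fun x' => (L.χ (f x'), ζ x')) x =
      (mfderiv 𝓘(ℂ, Cm (p + 2)) 𝓘(ℂ, Cm p) (fun x' => L.χ (f x')) x).prod
        (mfderiv 𝓘(ℂ, Cm (p + 2)) 𝓘(ℂ, Cm 2) ζ x) := mfderiv_prodMk h7 h7'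
    have h12 : mfderiv 𝓘(ℂ, Cm (p + 2)) 𝓘(ℂ, Cm p × Cm 2) (fun x' => (L.χ (f x'), ζ x')) x =
        (mfderiv 𝓘(ℂ, Cm (p + 2)) 𝓘(ℂ, Cm p) (fun x' => L.χ (f x')) x).prod
        (mfderiv 𝓘(ℂ, Cm (p + 2)) 𝓘(ℂ, Cm 2) ζ x) := by
      rw [← h11, modelWithCornersSelf_prod, ← chartedSpaceSelf_prod]
    rw [h12]
    exact Prod.ext h8 rfl
  have hθm : MDifferentiableAt 𝓘(ℂ, Cm p × Cm 2) 𝓘(ℂ, F) θ (L.χ (f x), ζ x) :=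
    hθ.mdifferentiableAt
  have h14 := mfderiv_comp_apply x (g := θ) (f := fun x' => (L.χ (f x'), ζ x')) hθm hP ξ
  rw [hP0, mfderiv_eq_fderiv] at h14
  have h15 : (θ ∘ fun x' => (L.χ (f x'), ζ x')) =ᶠ[𝓝 x] g := by
    filter_upwards [hg] with x' a
    exact a.symm
  rw [h15.mfderiv_eq] at h14
  have h16 : fderiv ℂ (fun u => θ (L.χ (f x), u)) (ζ x) =
      (fderiv ℂ θ (L.χ (f x), ζ x)).comp (ContinuousLinearMap.inr ℂ (Cm p) (Cm 2)) := by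
    have h17 : HasFDerivAt (fun u : Cm 2 => (L.χ (f x), u))
        (ContinuousLinearMap.inr ℂ (Cm p) (Cm 2)) (ζ x) := hasFDerivAt_prodMk_right _ _
    exact (hθ.hasFDerivAt.comp (ζ x) h17).fderiv
  rw [h16]
  exact h14

/-- change of the determinants -/
theorem Dt_trans {x : Z} (hf : ContMDiff 𝓘(ℂ, Cm (p + 2)) 𝓘(ℂ, Cm p) ω f) (hx : f x ∈ U L)
    {ζ ζ' : Z → Cm 2} (hζ : ContMDiffAt 𝓘(ℂ, Cm (p + 2)) 𝓘(ℂ, Cm 2) ω ζ x)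
    (hζ' : ContMDiffAt 𝓘(ℂ, Cm (p + 2)) 𝓘(ℂ, Cm 2) ω ζ' x) {θ : Cm p × Cm 2 → Cm 2}
    (hθ : AnalyticAt ℂ θ (L.χ (f x), ζ x)) (hg : ∀ᶠ z in 𝓝 x, ζ' z = θ (L.χ (f z), ζ z))
    {ξ : Fin 2 → Cm (p + 2)}
    (hξ : ∀ l, mfderiv 𝓘(ℂ, Cm (p + 2)) 𝓘(ℂ, Cm p) f x (ξ l) = 0) :
    Dt ζ' x ξ = (H64.TK.jac (fun u => θ (L.χ (f x), u)) (ζ x)).det * Dt ζ x ξ := by
  rw [Dt_eq (hζ.mdifferentiableAt (by simp)), Dt_eq (hζ'.mdifferentiableAt (by simp)),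
    ← Matrix.det_mul]
  congr 1
  ext k l
  have h1 := mfderiv_vert hf hx hζ hθ.differentiableAt hg (hξ l)
  simp only [Matrix.of_apply]
  rw [h1]
  exact H485.U.fderiv_jac _ _ _ _

theorem inv {x : Z} (hf : ContMDiff 𝓘(ℂ, Cm (p + 2)) 𝓘(ℂ, Cm p) ω f) (hx : f x ∈ U L)
    {i j : IX L} {ζ ζ' : Z → Cm 2} (h : IsCo L x i ζ) (h' : IsCo L x j ζ')
    {ξ : Fin 2 → Cm (p + 2)}
    (hξ : ∀ l, mfderiv 𝓘(ℂ, Cm (p + 2)) 𝓘(ℂ, Cm p) f x (ξ l) = 0) :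
    (L.s i (L.χ (f x), ζ x) * Dt ζ x ξ) ^ N = (L.s j (L.χ (f x), ζ' x) * Dt ζ' x ξ) ^ N := by
  obtain ⟨γ, θ, k1, k2, k3, k4⟩ := trans hf hx h h'
  have hS := L.holS.form _ (L.hT' hx.2) hx.2
  have hne := L.holS.ne _ hx.2
  have hone := L.one _ hx.2
  have hc : Tendsto (fun u : Cm 2 => (L.χ (f x), u)) (𝓝 (ζ x)) (𝓝 (L.χ (f x), ζ x)) :=
    (by fun_prop : Continuous fun u : Cm 2 => (L.χ (f x), u)).tendsto _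
  have h1 := hS.change (sF γ i) j (ζ x) h.2.1 (ζ' x) h'.2.1 (fun u => θ (L.χ (f x), u))
    (AnalyticAt.fun_comp (f := fun u : Cm 2 => (L.χ (f x), u)) k1 (by fun_prop)) k2
    (hc.eventually k3)
  have h2 := shf_pow (S := L.𝓕.at (L.χ (f x)) (L.hT' hx.2)) hS hne
    (fun s' hs' => hone_of hone hS hne hs') γ i h.2.1
  rw [L.card] at h2
  have h3 : L.s (sF γ i) (L.χ (f x), ζ x) ^ N = L.s i (L.χ (f x), ζ x) ^ N := h2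
  rw [Dt_trans hf hx h.1 h'.1 k1 k4 hξ, ← mul_assoc, mul_pow, ← h3]
  have h4 : L.s (sF γ i) (L.χ (f x), ζ x) = L.s j (L.χ (f x), ζ' x) *
    (H64.TK.jac (fun u => θ (L.χ (f x), u)) (ζ x)).det := h1
  rw [← h4, ← mul_pow]

variable (L)

open Classical in
/-- the form -/
def eta (x : Z) (ξ : Fin 2 → Cm (p + 2)) : ℂ :=
  if h : ∃ (i : IX L) (ζ : Z → Cm 2), IsCo L x i ζ then
    (L.s h.choose (L.χ (f x), h.choose_spec.choose x) * Dt h.choose_spec.choose x ξ) ^ N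
  else 0

variable {L}

theorem eta_eq {x : Z} (hf : ContMDiff 𝓘(ℂ, Cm (p + 2)) 𝓘(ℂ, Cm p) ω f) (hx : f x ∈ U L)
    {i : IX L} {ζ : Z → Cm 2} (h : IsCo L x i ζ) {ξ : Fin 2 → Cm (p + 2)}
    (hξ : ∀ l, mfderiv 𝓘(ℂ, Cm (p + 2)) 𝓘(ℂ, Cm p) f x (ξ l) = 0) :
    eta L x ξ = (L.s i (L.χ (f x), ζ x) * Dt ζ x ξ) ^ N := by
  have h0 : ∃ (i : IX L) (ζ : Z → Cm 2), IsCo L x i ζ := ⟨i, ζ, h⟩
  rw [eta, dif_pos h0]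
  exact inv hf hx h0.choose_spec.choose_spec h hξ

/-- the charts of `Z` -/
theorem mdiff_q {y : Y} (hy : y ∈ U L) (i : IX L) {u : Cm 2} (hu : u ∈ ball (0 : Cm 2) 3) :
    MDifferentiableAt 𝓘(ℂ, Cm p × Cm 2) 𝓘(ℂ, Cm (p + 2))
      (fun r : Cm p × Cm 2 => L.q r.1 (sg L i r.1 r.2)) (L.χ y, u) := by
  have h1 := (L.model.hol (idx ⊥ L.𝓕.N i).1 _ (L.hT' hy.2) _ hu).mdifferentiableAt (n := ω)
    (by simp)
  refine h1.congr_of_eventuallyEq ?_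
  have hT : ∀ᶠ r : Cm p × Cm 2 in 𝓝 (L.χ y, u), r.1 ∈ L.𝓕.T :=
    (continuous_fst.tendsto (L.χ y, u)).eventually (L.𝓕.isOpen.mem_nhds (L.hT' hy.2))
  filter_upwards [hT] with r hr
  exact ((L.model.eq _ hr _ _).2 ⟨rep ⊥ (idx ⊥ L.𝓕.N i).2, rfl⟩).symm

/-- `dζ` and `df` have no common zero -/
theorem co_inj {x : Z} (hf : ContMDiff 𝓘(ℂ, Cm (p + 2)) 𝓘(ℂ, Cm p) ω f) (hx : f x ∈ U L)
    {i : IX L} {ζ : Z → Cm 2} (h : IsCo L x i ζ) {ξ : Cm (p + 2)}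
    (hξ : mfderiv 𝓘(ℂ, Cm (p + 2)) 𝓘(ℂ, Cm p) f x ξ = 0)
    (hξ' : (mfderiv 𝓘(ℂ, Cm (p + 2)) 𝓘(ℂ, Cm 2) ζ x ξ : Cm 2) = 0) : ξ = 0 := by
  have h7 : MDifferentiableAt 𝓘(ℂ, Cm (p + 2)) 𝓘(ℂ, Cm p) (fun x' => L.χ (f x')) x :=
    (ContMDiffAt.comp x (g := L.χ) (f := f) (contMDiffAt_χ L hx) (hf x)).mdifferentiableAt
      (by simp)
  have h7' : MDifferentiableAt 𝓘(ℂ, Cm (p + 2)) 𝓘(ℂ, Cm 2) ζ x := h.1.mdifferentiableAt (by simp)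
  have h8 : mfderiv 𝓘(ℂ, Cm (p + 2)) 𝓘(ℂ, Cm p) (fun x' => L.χ (f x')) x ξ = 0 := by
    have h9 := mfderiv_comp_apply x (g := L.χ) (f := f)
      ((contMDiffAt_χ L hx).mdifferentiableAt (by simp)) ((hf x).mdifferentiableAt (by simp)) ξ
    have h10 : (L.χ : Y → Cm p) ∘ f = fun x' => L.χ (f x') := rfl
    rw [h10] at h9
    rw [h9, hξ]
    exact map_zero _
  have hP : MDifferentiableAt 𝓘(ℂ, Cm (p + 2)) 𝓘(ℂ, Cm p × Cm 2)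
      (fun x' => (L.χ (f x'), ζ x')) x := by
    rw [modelWithCornersSelf_prod, ← chartedSpaceSelf_prod]
    exact h7.prodMk h7'
  have hP0 : mfderiv 𝓘(ℂ, Cm (p + 2)) 𝓘(ℂ, Cm p × Cm 2)
      (fun x' => (L.χ (f x'), ζ x')) x ξ = 0 := by
    have h11 : mfderiv 𝓘(ℂ, Cm (p + 2)) (𝓘(ℂ, Cm p).prod 𝓘(ℂ, Cm 2))
      (fun x' => (L.χ (f x'), ζ x')) x =
      (mfderiv 𝓘(ℂ, Cm (p + 2)) 𝓘(ℂ, Cm p) (fun x' => L.χ (f x')) x).prod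
        (mfderiv 𝓘(ℂ, Cm (p + 2)) 𝓘(ℂ, Cm 2) ζ x) := mfderiv_prodMk h7 h7'
    have h12 : mfderiv 𝓘(ℂ, Cm (p + 2)) 𝓘(ℂ, Cm p × Cm 2) (fun x' => (L.χ (f x'), ζ x')) x =
        (mfderiv 𝓘(ℂ, Cm (p + 2)) 𝓘(ℂ, Cm p) (fun x' => L.χ (f x')) x).prod
        (mfderiv 𝓘(ℂ, Cm (p + 2)) 𝓘(ℂ, Cm 2) ζ x) := by
      rw [← h11, modelWithCornersSelf_prod, ← chartedSpaceSelf_prod]
    rw [h12]
    exact Prod.ext h8 hξ'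
  have h14 := mfderiv_comp_apply x (g := fun r : Cm p × Cm 2 => L.q r.1 (sg L i r.1 r.2))
    (f := fun x' => (L.χ (f x'), ζ x')) (mdiff_q hx i h.2.1) hP ξ
  rw [hP0] at h14
  have h15 : ((fun r : Cm p × Cm 2 => L.q r.1 (sg L i r.1 r.2)) ∘
      fun x' => (L.χ (f x'), ζ x')) =ᶠ[𝓝 x] id := by
    filter_upwards [h.2.2] with x' a
    exact a
  rw [h15.mfderiv_eq, mfderiv_id] at h14
  exact h14.trans (map_zero _)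

end Vale.Agent.P281.H511.TS
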