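import Vale.Agent.P281.H64.TS.Spec2

/-!
# P281, project T-S (helper511), block G2: the action of `Γ` on the forms of the universal covering
-/

open Set Filter Metric MeasureTheory Vale.Agent.P272.K
open scoped Topology ContDiff ComplexConjugate ComplexOrder

set_option linter.unusedSectionVars false

noncomputable section

namespace Vale.Agent.P281.H511.TS

open Vale.Agent.P281.H64.TK Vale.Agent.P281.H64.TK.TS
open Vale.Agent.P281.H603.TE (sub fsub fW idx rep exists_rep ccs sub_sigma)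

attribute [local instance] ccs

variable {d : ℕ} {E Γ : Type} [TopologicalSpace E] [Group Γ] [MulAction Γ E]

/-- the number of sheets of the universal covering -/
abbrev NB (Γ : Type) [Group Γ] [(⊥ : Subgroup Γ).FiniteIndex] (N : ℕ) : ℕ :=
  Fintype.card (Fin N × (Γ ⧸ (⊥ : Subgroup Γ)))

section idx
variable [(⊥ : Subgroup Γ).FiniteIndex] {N : ℕ}

theorem exists_rep_bot (γ : Γ) : ∃ c, rep (⊥ : Subgroup Γ) c = γ := by
  obtain ⟨κ, c, h⟩ := exists_rep (⊥ : Subgroup Γ) γ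
  refine ⟨c, ?_⟩
  have h1 : (κ : Γ) = 1 := Subgroup.mem_bot.1 κ.2
  rw [h, h1, one_mul]

theorem rep_inj {c c' : Γ ⧸ (⊥ : Subgroup Γ)} (h : rep (⊥ : Subgroup Γ) c = rep ⊥ c') :
    c = c' := by
  have h1 : c.out = c'.out := inv_injective h
  rw [← QuotientGroup.out_eq' c, ← QuotientGroup.out_eq' c', h1]

theorem exists_shf (γ : Γ) (i : Fin (NB Γ N)) : ∃ j : Fin (NB Γ N),
    (idx ⊥ N j).1 = (idx ⊥ N i).1 ∧
      rep (⊥ : Subgroup Γ) (idx ⊥ N j).2 = γ * rep (⊥ : Subgroup Γ) (idx ⊥ N i).2 := by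
  obtain ⟨c, hc⟩ := exists_rep_bot (γ * rep (⊥ : Subgroup Γ) (idx ⊥ N i).2)
  refine ⟨(idx ⊥ N).symm ((idx ⊥ N i).1, c), ?_⟩
  rw [Equiv.apply_symm_apply]
  exact ⟨rfl, hc⟩

/-- the number of the translate by `γ` of the sheet number `i` -/
def shf (γ : Γ) (i : Fin (NB Γ N)) : Fin (NB Γ N) := (exists_shf γ i).choose

theorem shf_fst (γ : Γ) (i : Fin (NB Γ N)) : (idx ⊥ N (shf γ i)).1 = (idx ⊥ N i).1 :=
  (exists_shf γ i).choose_spec.1

theorem shf_snd (γ : Γ) (i : Fin (NB Γ N)) :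
    rep (⊥ : Subgroup Γ) (idx ⊥ N (shf γ i)).2 = γ * rep (⊥ : Subgroup Γ) (idx ⊥ N i).2 :=
  (exists_shf γ i).choose_spec.2

theorem idx_ext {i j : Fin (NB Γ N)} (h1 : (idx (⊥ : Subgroup Γ) N j).1 = (idx ⊥ N i).1)
    (h2 : rep (⊥ : Subgroup Γ) (idx ⊥ N j).2 = rep (⊥ : Subgroup Γ) (idx ⊥ N i).2) : j = i :=
  (idx (⊥ : Subgroup Γ) N).injective (Prod.ext h1 (rep_inj h2))

theorem shf_one (i : Fin (NB Γ N)) : shf (1 : Γ) i = i :=
  idx_ext (shf_fst _ _) (by rw [shf_snd, one_mul])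

theorem shf_mul (γ γ' : Γ) (i : Fin (NB Γ N)) : shf (γ * γ') i = shf γ (shf γ' i) :=
  idx_ext (by rw [shf_fst, shf_fst, shf_fst]) (by rw [shf_snd, shf_snd, shf_snd, mul_assoc])

end idx

section sheets
variable [(⊥ : Subgroup Γ).FiniteIndex] [ContinuousConstSMul Γ E]

/-- the number of the translate by `γ` of the sheet number `i` -/
def shS (S : Sheets d E Γ) (γ : Γ) (i : Fin (sub S (⊥ : Subgroup Γ)).N) :
    Fin (sub S (⊥ : Subgroup Γ)).N := shf (N := S.N) γ i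

variable {S : Sheets d E Γ}

theorem shS_one (i : Fin (sub S (⊥ : Subgroup Γ)).N) : shS S (1 : Γ) i = i :=
  shf_one (N := S.N) i

theorem shS_mul (γ γ' : Γ) (i : Fin (sub S (⊥ : Subgroup Γ)).N) :
    shS S (γ * γ') i = shS S γ (shS S γ' i) := shf_mul (N := S.N) γ γ' i

theorem sub_shf (γ : Γ) (i : Fin (sub S (⊥ : Subgroup Γ)).N) (z : Cm d) :
    (sub S (⊥ : Subgroup Γ)).σ (shS S γ i) z = γ • (sub S (⊥ : Subgroup Γ)).σ i z := by
  have h1 : (idx ⊥ S.N (shS S γ i)).1 = (idx ⊥ S.N i).1 := shf_fst (N := S.N) γ i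
  have h2 : rep (⊥ : Subgroup Γ) (idx ⊥ S.N (shS S γ i)).2 =
    γ * rep (⊥ : Subgroup Γ) (idx ⊥ S.N i).2 := shf_snd (N := S.N) γ i
  have h3 := sub_sigma S (⊥ : Subgroup Γ) (shS S γ i) z
  rw [h1, h2, mul_smul] at h3
  exact h3

/-- translates of holomorphic forms -/
theorem holD_shf {s : Fin (sub S (⊥ : Subgroup Γ)).N → Cm d → ℂ} (hs : HolD (sub S ⊥) s) (γ : Γ) :
    HolD (sub S (⊥ : Subgroup Γ)) fun i z => s (shS S γ i) z where
  hol i := hs.hol _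
  change i j z hz z' hz' θ hθ hθz hev := by
    refine hs.change _ _ z hz z' hz' θ hθ hθz ?_
    filter_upwards [hev] with u hu
    rw [sub_shf, sub_shf, hu]

/-- **the powers of the form are invariant** -/
theorem shf_pow {s : Fin (sub S (⊥ : Subgroup Γ)).N → Cm d → ℂ} (hs : HolD (sub S ⊥) s)
    (hne : ∃ i, ∃ z ∈ ball (0 : Cm d) 3, s i z ≠ 0)
    (hone : ∀ s', HolD (sub S (⊥ : Subgroup Γ)) s' → ∃ c : ℂ, ∀ i, ∀ z ∈ ball (0 : Cm d) 3,
      s' i z = c * s i z) (γ : Γ) (i : Fin (sub S (⊥ : Subgroup Γ)).N) {z : Cm d}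
    (hz : z ∈ ball (0 : Cm d) 3) :
    s (shS S γ i) z ^ Nat.card Γ = s i z ^ Nat.card Γ := by
  obtain ⟨c, hc⟩ := hone _ (holD_shf hs γ)
  have h1 : ∀ k : ℕ, ∀ i, ∀ z ∈ ball (0 : Cm d) 3, s (shS S (γ ^ k) i) z = c ^ k * s i z := by
    intro k
    induction k with
    | zero =>
      intro i z hz
      rw [pow_zero, pow_zero, one_mul, shS_one]
    | succ k ih =>
      intro i z hz
      rw [pow_succ', shS_mul, hc _ z hz, ih i z hz, pow_succ']
      ring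
  obtain ⟨i₀, z₀, hz₀, h0⟩ := hne
  have h2 := h1 (Nat.card Γ) i₀ z₀ hz₀
  rw [pow_card_eq_one', shS_one] at h2
  have h3 : c ^ Nat.card Γ = 1 := by
    have h4 : (c ^ Nat.card Γ - 1) * s i₀ z₀ = 0 := by
      rw [sub_mul, ← h2, one_mul, sub_self]
    rcases mul_eq_zero.1 h4 with h5 | h5
    · exact sub_eq_zero.1 h5
    · exact absurd h5 h0
  rw [hc i z hz, mul_pow, h3, one_mul]

end sheets

end Vale.Agent.P281.H511.TS
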